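import Vale.Agent.P140W36.Rows

/-! # P140: row C1, the datum, condition (i), momentum and energy -/

open MeasureTheory Set
open scoped ENNReal

namespace Vale.Agent.P140W36

open Vale.Agent.P122W36 (R3)
open Vale.Agent.P140

theorem wt_nonneg19 {f : Om → ℝ} (h0 : ∀ p, 0 ≤ f p) (p : Om) : 0 ≤ wt f p :=
  mul_nonneg (h0 p) (by positivity)

theorem wt_meas19 {f : Om → ℝ} (hf : Measurable f) : Measurable (wt f) := by
  unfold wt
  exact hf.mul ((measurable_const.add (measurable_snd.norm.pow_const 2)).add hf.log.abs)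

theorem wt_int19 {f : Om → ℝ} (hf : Measurable f) (h0 : ∀ p, 0 ≤ f p)
    (h : ∫⁻ p, ENNReal.ofReal (wt f p) < ⊤) : Integrable (wt f) :=
  ⟨(wt_meas19 hf).aestronglyMeasurable,
    (hasFiniteIntegral_iff_ofReal (Filter.Eventually.of_forall (wt_nonneg19 h0))).2 h⟩

theorem en_le19 {f : Om → ℝ} (h0 : ∀ p, 0 ≤ f p) (p : Om) : ‖p.2‖ ^ 2 * f p ≤ wt f p := by
  unfold wt
  rw [mul_comm]
  exact mul_le_mul_of_nonneg_left (by linarith [abs_nonneg (Real.log (f p))]) (h0 p)

theorem en_int19 {f : Om → ℝ} (hf : Measurable f) (h0 : ∀ p, 0 ≤ f p) (h : Integrable (wt f)) :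
    Integrable fun p : Om => ‖p.2‖ ^ 2 * f p :=
  h.mono' ((measurable_snd.norm.pow_const 2).mul hf).aestronglyMeasurable
    (Filter.Eventually.of_forall fun p => by
      rw [Real.norm_of_nonneg (mul_nonneg (by positivity) (h0 p))]
      exact en_le19 h0 p)

theorem mom_int19 {f : Om → ℝ} (hf : Measurable f) (h0 : ∀ p, 0 ≤ f p) (h : Integrable (wt f)) :
    Integrable fun p : Om => f p • p.2 :=
  h.mono' (hf.smul measurable_snd).aestronglyMeasurable
    (Filter.Eventually.of_forall fun p => by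
      rw [norm_smul, Real.norm_of_nonneg (h0 p)]
      unfold wt
      exact mul_le_mul_of_nonneg_left
        (by nlinarith [abs_nonneg (Real.log (f p)), sq_nonneg (‖p.2‖ - 1), sq_nonneg ‖p.2‖]) (h0 p))

theorem c1 : C1 := by
  intro F0 F h
  have hm : ∀ t, Measurable (F t) := fun t => h.measurable.comp measurable_prodMk_left
  have hb : ∀ T : ℝ, ∃ C : ℝ, ∀ t ∈ Icc 0 T, Integrable (wt (F t)) ∧ ∫ p, wt (F t) p ≤ C := by
    intro T
    obtain ⟨C, hC⟩ := h.bounded T
    refine ⟨max C 0, fun t ht => ?_⟩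
    have hi := wt_int19 (hm t) (h.nonneg t) ((hC t ht).trans_lt ENNReal.ofReal_lt_top)
    refine ⟨hi, ?_⟩
    rw [← ENNReal.ofReal_le_ofReal_iff (le_max_right C 0),
      ofReal_integral_eq_lintegral_ofReal hi
        (Filter.Eventually.of_forall (wt_nonneg19 (h.nonneg t)))]
    exact (hC t ht).trans (ENNReal.ofReal_le_ofReal (le_max_left C 0))
  have hw : ∀ t, 0 ≤ t → Integrable (wt (F t)) := fun t ht => by
    obtain ⟨C, hC⟩ := hb t
    exact (hC t ⟨ht, le_rfl⟩).1
  have h0 := wt_int19 h.datum_measurable h.datum_nonneg h.datum_finite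
  refine ⟨⟨h.datum_measurable, h.datum_nonneg, h0⟩, ⟨h.integrable, h.weak_cont, h.initial, hb⟩,
    ⟨∫ p : Om, F 0 p • p.2, fun t ht => ⟨mom_int19 (hm t) (h.nonneg t) (hw t ht), h.momentum t ht⟩⟩,
    fun t ht => ⟨en_int19 (hm t) (h.nonneg t) (hw t ht), ?_⟩⟩
  have e0 : ∀ p : Om, 0 ≤ ‖p.2‖ ^ 2 * F0 p := fun p => mul_nonneg (by positivity) (h.datum_nonneg p)
  have et : ∀ p : Om, 0 ≤ ‖p.2‖ ^ 2 * F t p := fun p => mul_nonneg (by positivity) (h.nonneg t p)
  rw [← ENNReal.ofReal_le_ofReal_iff (integral_nonneg e0),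
    ofReal_integral_eq_lintegral_ofReal (en_int19 (hm t) (h.nonneg t) (hw t ht))
      (Filter.Eventually.of_forall et),
    ofReal_integral_eq_lintegral_ofReal (en_int19 h.datum_measurable h.datum_nonneg h0)
      (Filter.Eventually.of_forall e0)]
  exact h.energy t ht

end Vale.Agent.P140W36
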